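import Vale.Agent.P237.Petty.Cor.Mid50.Poly

/-!
# P237: constants of the cell from `25 / (p + 2)` to `1`, `31 ≤ p ≤ 47`, middle orders
-/

namespace Vale.Agent.P237.Petty.Cor.Mid32.Cell5

open Mid50

/-- The piece on `[0, 3 / 25]`. -/
def piece1 : Piece :=
  ⟨(0), (3 / 25), (1 / 32), (9999 / 10000), (5001 / 10000), (10001 / 10000),
    (2501 / 5000), (29577 / 10000), (29853 / 2000), (0), (34583 / 10000), true⟩

/-- The piece on `[3 / 25, 1 / 4]`. -/
def piece2 : Piece :=
  ⟨(3 / 25), (1 / 4), (1 / 32), (9999 / 10000), (313 / 625), (10001 / 10000),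
    (5009 / 10000), (15339 / 5000), (28043 / 5000), (0), (34583 / 10000), true⟩

/-- The piece on `[1 / 4, 2 / 5]`. -/
def piece3 : Piece :=
  ⟨(1 / 4), (2 / 5), (1 / 32), (9999 / 10000), (5023 / 10000), (10001 / 10000),
    (314 / 625), (7659 / 2500), (33963 / 10000), (1 / 4), (4141 / 1250), true⟩

/-- The piece on `[2 / 5, 11 / 20]`. -/
def piece4 : Piece :=
  ⟨(2 / 5), (11 / 20), (1 / 32), (9999 / 10000), (631 / 1250), (1),
    (5049 / 10000), (32063 / 10000), (12557 / 5000), (1 / 4), (4141 / 1250), true⟩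

/-- The piece on `[11 / 20, 7 / 10]`. -/
def piece5 : Piece :=
  ⟨(11 / 20), (7 / 10), (1 / 32), (9999 / 10000), (2541 / 5000), (1),
    (5083 / 10000), (33589 / 10000), (1261 / 625), (1 / 4), (4141 / 1250), true⟩

/-- The piece on `[7 / 10, 17 / 20]`. -/
def piece6 : Piece :=
  ⟨(7 / 10), (17 / 20), (1 / 32), (4999 / 5000), (41 / 80), (1),
    (2563 / 5000), (17603 / 5000), (212 / 125), (1 / 4), (4141 / 1250), true⟩

/-- The piece on `[17 / 20, 1]`. -/
def piece7 : Piece :=
  ⟨(17 / 20), (1), (1 / 32), (9997 / 10000), (2589 / 5000), (9999 / 10000),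
    (259 / 500), (9227 / 2500), (14669 / 10000), (1 / 4), (4141 / 1250), true⟩

/-- The piece on `[1, 6 / 5]`. -/
def piece8 : Piece :=
  ⟨(1), (6 / 5), (1 / 32), (1999 / 2000), (5257 / 10000), (9997 / 10000),
    (2629 / 5000), (9749 / 2500), (1269 / 1000), (1 / 4), (4141 / 1250), true⟩

/-- The piece on `[6 / 5, 29 / 20]`. -/
def piece9 : Piece :=
  ⟨(6 / 5), (29 / 20), (1 / 32), (999 / 1000), (5381 / 10000), (9993 / 10000),
    (5383 / 10000), (20903 / 5000), (1083 / 1000), (1 / 4), (4141 / 1250), true⟩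

/-- The piece on `[29 / 20, 157 / 100]`. -/
def piece10 : Piece :=
  ⟨(29 / 20), (157 / 100), (1 / 32), (624 / 625), (5489 / 10000), (9987 / 10000),
    (5491 / 10000), (44187 / 10000), (121 / 125), (1 / 4), (4141 / 1250), true⟩

/-- The piece on `[157 / 100, 2]`. -/
def piece11 : Piece :=
  ⟨(157 / 100), (2), (1 / 32), (1993 / 2000), (2871 / 5000), (2493 / 2500),
    (5749 / 10000), (11983 / 2500), (8339 / 10000), (1 / 4), (4141 / 1250), false⟩

/-- The piece on `[2, 23 / 10]`. -/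
def piece12 : Piece :=
  ⟨(2), (23 / 10), (1 / 32), (9927 / 10000), (6101 / 10000), (621 / 625),
    (6111 / 10000), (3313 / 625), (7063 / 10000), (1 / 4), (4141 / 1250), false⟩

/-- The piece on `[23 / 10, 13 / 5]`. -/
def piece13 : Piece :=
  ⟨(23 / 10), (13 / 5), (1 / 32), (987 / 1000), (6503 / 10000), (9883 / 10000),
    (3259 / 5000), (3583 / 625), (627 / 1000), (1 / 4), (4141 / 1250), false⟩

/-- The piece on `[13 / 5, 59 / 20]`. -/
def piece14 : Piece :=
  ⟨(13 / 5), (59 / 20), (1 / 32), (1953 / 2000), (442 / 625), (9789 / 10000),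
    (7103 / 10000), (62123 / 10000), (1397 / 2500), (1 / 4), (4141 / 1250), false⟩

/-- The piece on `[59 / 20, 33 / 10]`. -/
def piece15 : Piece :=
  ⟨(59 / 20), (33 / 10), (1 / 32), (9579 / 10000), (7867 / 10000), (601 / 625),
    (317 / 400), (33693 / 5000), (5001 / 10000), (1 / 4), (4141 / 1250), false⟩

/-- The piece on `[33 / 10, 89 / 25]`. -/
def piece16 : Piece :=
  ⟨(33 / 10), (89 / 25), (1 / 32), (373 / 400), (8751 / 10000), (9369 / 10000),
    (1767 / 2000), (14403 / 2000), (4583 / 10000), (1 / 4), (4141 / 1250), false⟩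

/-- The piece on `[89 / 25, 77 / 20]`. -/
def piece17 : Piece :=
  ⟨(89 / 25), (77 / 20), (1 / 32), (4477 / 5000), (9849 / 10000), (1127 / 1250),
    (10003 / 10000), (76253 / 10000), (213 / 500), (1 / 4), (4141 / 1250), false⟩

/-- The piece on `[77 / 20, 104 / 25]`. -/
def piece18 : Piece :=
  ⟨(77 / 20), (104 / 25), (1 / 32), (2079 / 2500), (11461 / 10000), (2099 / 2500),
    (11763 / 10000), (80927 / 10000), (791 / 2000), (1 / 4), (4141 / 1250), false⟩

/-- The piece on `[104 / 25, 219 / 50]`. -/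
def piece19 : Piece :=
  ⟨(104 / 25), (219 / 50), (1 / 32), (3733 / 5000), (2667 / 2000), (1883 / 2500),
    (2759 / 2000), (85057 / 10000), (3721 / 10000), (1 / 4), (4141 / 1250), false⟩

/-- The piece on `[219 / 50, 89 / 20]`. -/
def piece20 : Piece :=
  ⟨(219 / 50), (89 / 20), (1 / 32), (1717 / 2500), (14543 / 10000), (3453 / 5000),
    (1877 / 1250), (87333 / 10000), (901 / 2500), (1 / 4), (4141 / 1250), false⟩

/-- The piece on `[89 / 20, 113 / 25]`. -/
def piece21 : Piece :=
  ⟨(89 / 20), (113 / 25), (61 / 2000), (6667 / 10000), (7467 / 5000), (837 / 1250),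
    (15397 / 10000), (22109 / 2500), (71 / 200), (1 / 4), (4141 / 1250), false⟩

/-- The piece on `[113 / 25, 23 / 5]`. -/
def piece22 : Piece :=
  ⟨(113 / 25), (23 / 5), (59 / 2000), (6493 / 10000), (15269 / 10000), (407 / 625),
    (7851 / 5000), (89617 / 10000), (1747 / 5000), (1 / 4), (4141 / 1250), false⟩

/-- The piece on `[23 / 5, 467 / 100]`. -/
def piece23 : Piece :=
  ⟨(23 / 5), (467 / 100), (57 / 2000), (6331 / 10000), (1947 / 1250), (3171 / 5000),
    (319 / 200), (90817 / 10000), (3439 / 10000), (1 / 4), (4141 / 1250), false⟩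

/-- The piece on `[467 / 100, 237 / 50]`. -/
def piece24 : Piece :=
  ⟨(467 / 100), (237 / 50), (111 / 4000), (153 / 250), (15969 / 10000), (3063 / 5000),
    (3263 / 2000), (91919 / 10000), (339 / 1000), (1 / 4), (4141 / 1250), false⟩

/-- The piece on `[237 / 50, 241 / 50]`. -/
def piece25 : Piece :=
  ⟨(237 / 50), (241 / 50), (107 / 4000), (5953 / 10000), (8139 / 5000), (5953 / 10000),
    (663 / 400), (46551 / 5000), (3339 / 10000), (1 / 4), (4141 / 1250), false⟩

/-- The piece on `[241 / 50, 49 / 10]`. -/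
def piece26 : Piece :=
  ⟨(241 / 50), (49 / 10), (13 / 500), (5669 / 10000), (8397 / 5000), (1133 / 2000),
    (853 / 500), (23593 / 2500), (1643 / 5000), (1 / 4), (4141 / 1250), false⟩

/-- The piece on `[49 / 10, 249 / 50]`. -/
def piece27 : Piece :=
  ⟨(49 / 10), (249 / 50), (1 / 40), (2739 / 5000), (17137 / 10000), (342 / 625),
    (867 / 500), (95659 / 10000), (1617 / 5000), (1 / 4), (4141 / 1250), false⟩

/-- The piece on `[249 / 50, 101 / 20]`. -/
def piece28 : Piece :=
  ⟨(249 / 50), (101 / 20), (97 / 4000), (5227 / 10000), (8791 / 5000), (261 / 500),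
    (17737 / 10000), (19367 / 2000), (797 / 2500), (1 / 4), (4141 / 1250), false⟩

/-- The piece on `[101 / 20, 257 / 50]`. -/
def piece29 : Piece :=
  ⟨(101 / 20), (257 / 50), (19 / 800), (4799 / 10000), (18329 / 10000), (1197 / 2500),
    (18481 / 10000), (49063 / 5000), (3139 / 10000), (1 / 4), (4141 / 1250), false⟩

/-- The piece on `[257 / 50, 261 / 50]`. -/
def piece30 : Piece :=
  ⟨(257 / 50), (261 / 50), (91 / 4000), (286 / 625), (2339 / 1250), (4569 / 10000),
    (4699 / 2500), (99487 / 10000), (3089 / 10000), (1 / 4), (4141 / 1250), false⟩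

/-- The piece on `[261 / 50, 53 / 10]`. -/
def piece31 : Piece :=
  ⟨(261 / 50), (53 / 10), (89 / 4000), (4113 / 10000), (3899 / 2000), (4107 / 10000),
    (9779 / 5000), (6297 / 625), (761 / 2500), (1 / 4), (4141 / 1250), false⟩

/-- The piece on `[53 / 10, 537 / 100]`. -/
def piece32 : Piece :=
  ⟨(53 / 10), (537 / 100), (43 / 2000), (959 / 2500), (9979 / 5000), (3833 / 10000),
    (19983 / 10000), (101967 / 10000), (1501 / 5000), (1 / 4), (4141 / 1250), false⟩

/-- The constants. -/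
def data : Data where
  mlo := 32
  mhi := 48
  hk := (6361 / 5000)
  g := (413 / 1000)
  n0 := (3091 / 1000)
  n1 := (61 / 50)
  g1 := (97 / 100)
  a := (7 / 10)
  l0 := (-6831 / 1000)
  l1 := (9841 / 1000)
  phi := (29 / 50)
  v1 := (51 / 50)
  z2 := (3 / 5)
  ev := (27183 / 10000)
  low := true
  pieces := [piece1, piece2, piece3, piece4, piece5, piece6, piece7, piece8, piece9, piece10,
    piece11, piece12, piece13, piece14, piece15, piece16, piece17, piece18, piece19, piece20,
    piece21, piece22, piece23, piece24, piece25, piece26, piece27, piece28, piece29, piece30,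
    piece31, piece32]
  terms := [⟨0, 0, (3349 / 1000)⟩, ⟨1, 0, (-10967 / 1000)⟩, ⟨2, 0, (11231 / 1000)⟩, ⟨3, 0, (-413 / 200)⟩,
    ⟨4, 0, (363 / 1000)⟩, ⟨5, 0, (-11 / 500)⟩, ⟨2, 1, (-11167 / 1000)⟩, ⟨3, 2, (3199 / 200)⟩,
    ⟨4, 3, (-1281 / 100)⟩, ⟨5, 3, (523 / 500)⟩]

end Vale.Agent.P237.Petty.Cor.Mid32.Cell5
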