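import Vale.Agent.P237.Petty.Cor.Few.Mask
import Vale.Agent.P237.Petty.Cor.Mid50.Good
import Vale.Agent.P237.Petty.Cor.Mid32.Cell5.Data

/-!
# P237: certificates of the cell from `25 / (p + 2)` to `1`, `31 ≤ p ≤ 47`, part 2
-/

namespace Vale.Agent.P237.Petty.Cor.Mid32.Cell5

open Mid50 P100.Bernstein

def far4_lh : certify false
    (farClaim ofRat data Corner.lh piece4 (.var 0) (.var 1) (.var 2))
    (box3 data piece4)
    (.split 0 (.split 0 (.split 1 .leaf (.split 1 .leaf (.split 1 .leaf (.split 2 (.split 2
      (.split 2 (.split 0 (.split 2 (.split 2 .leaf .leaf) .leaf) .leaf) .leaf) .leaf)
      .leaf)))) .leaf) .leaf) = true := by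
  refine Few.certify_of_quick ?_
  decide +kernel

def far4_hl : certify false
    (farClaim ofRat data Corner.hl piece4 (.var 0) (.var 1) (.var 2))
    (box3 data piece4)
    (.split 0 (.split 0 (.split 1 .leaf (.split 1 .leaf (.split 1 .leaf (.split 2 (.split 2
      (.split 0 (.split 2 (.split 2 (.split 2 .leaf .leaf) .leaf) .leaf) .leaf) .leaf)
      .leaf)))) .leaf) .leaf) = true := by
  refine Few.certify_of_quick ?_
  decide +kernel

def far4_hh : certify false
    (farClaim ofRat data Corner.hh piece4 (.var 0) (.var 1) (.var 2))
    (box3 data piece4)
    (.split 0 (.split 0 (.split 1 .leaf (.split 1 .leaf (.split 1 .leaf (.split 2 (.split 0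
      (.split 2 (.split 2 (.split 2 (.split 2 .leaf .leaf) .leaf) .leaf) .leaf) .leaf)
      .leaf)))) .leaf) .leaf) = true := by
  refine Few.certify_of_quick ?_
  decide +kernel

def top5 : certify false
    (topExpr piece5)
    (topBox data piece5)
    (.split 0 .leaf .leaf) = true := by
  refine Few.certify_of_quick ?_
  decide +kernel

def low5 : certify false
    (loExpr piece5)
    (zBox data piece5)
    .leaf = true := by
  refine Few.certify_of_quick ?_
  decide +kernel

def high5 : certify false
    (hiExpr piece5)
    (zBox data piece5)
    .leaf = true := by
  refine Few.certify_of_quick ?_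
  decide +kernel

def vertex5_ll : certify true
    (vertex ofRat data Corner.ll piece5 (.var 0) (.var 1))
    (box2 data piece5)
    .leaf = true := by
  decide +kernel

def vertex5_lh : certify true
    (vertex ofRat data Corner.lh piece5 (.var 0) (.var 1))
    (box2 data piece5)
    .leaf = true := by
  decide +kernel

def vertex5_hl : certify true
    (vertex ofRat data Corner.hl piece5 (.var 0) (.var 1))
    (box2 data piece5)
    .leaf = true := by
  decide +kernel

def vertex5_hh : certify true
    (vertex ofRat data Corner.hh piece5 (.var 0) (.var 1))
    (box2 data piece5)
    .leaf = true := by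
  decide +kernel

def near5_ll : certify false
    (nearClaim ofRat data Corner.ll piece5 (.var 0) (.var 1))
    (box2 data piece5)
    .leaf = true := by
  refine Few.certify_of_quick ?_
  decide +kernel

def near5_lh : certify false
    (nearClaim ofRat data Corner.lh piece5 (.var 0) (.var 1))
    (box2 data piece5)
    .leaf = true := by
  refine Few.certify_of_quick ?_
  decide +kernel

def near5_hl : certify false
    (nearClaim ofRat data Corner.hl piece5 (.var 0) (.var 1))
    (box2 data piece5)
    .leaf = true := by
  refine Few.certify_of_quick ?_
  decide +kernel

def near5_hh : certify false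
    (nearClaim ofRat data Corner.hh piece5 (.var 0) (.var 1))
    (box2 data piece5)
    .leaf = true := by
  refine Few.certify_of_quick ?_
  decide +kernel

def far5_ll : certify false
    (farClaim ofRat data Corner.ll piece5 (.var 0) (.var 1) (.var 2))
    (box3 data piece5)
    .leaf = true := by
  refine Few.certify_of_quick ?_
  decide +kernel

def far5_lh : certify false
    (farClaim ofRat data Corner.lh piece5 (.var 0) (.var 1) (.var 2))
    (box3 data piece5)
    .leaf = true := by
  refine Few.certify_of_quick ?_
  decide +kernel

def far5_hl : certify false
    (farClaim ofRat data Corner.hl piece5 (.var 0) (.var 1) (.var 2))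
    (box3 data piece5)
    .leaf = true := by
  refine Few.certify_of_quick ?_
  decide +kernel

def far5_hh : certify false
    (farClaim ofRat data Corner.hh piece5 (.var 0) (.var 1) (.var 2))
    (box3 data piece5)
    .leaf = true := by
  refine Few.certify_of_quick ?_
  decide +kernel

def top6 : certify false
    (topExpr piece6)
    (topBox data piece6)
    (.split 0 .leaf .leaf) = true := by
  refine Few.certify_of_quick ?_
  decide +kernel

def low6 : certify false
    (loExpr piece6)
    (zBox data piece6)
    .leaf = true := by
  refine Few.certify_of_quick ?_
  decide +kernel

def high6 : certify false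
    (hiExpr piece6)
    (zBox data piece6)
    .leaf = true := by
  refine Few.certify_of_quick ?_
  decide +kernel

def vertex6_ll : certify true
    (vertex ofRat data Corner.ll piece6 (.var 0) (.var 1))
    (box2 data piece6)
    .leaf = true := by
  decide +kernel

def vertex6_lh : certify true
    (vertex ofRat data Corner.lh piece6 (.var 0) (.var 1))
    (box2 data piece6)
    .leaf = true := by
  decide +kernel

def vertex6_hl : certify true
    (vertex ofRat data Corner.hl piece6 (.var 0) (.var 1))
    (box2 data piece6)
    .leaf = true := by
  decide +kernel

def vertex6_hh : certify true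
    (vertex ofRat data Corner.hh piece6 (.var 0) (.var 1))
    (box2 data piece6)
    .leaf = true := by
  decide +kernel

def near6_ll : certify false
    (nearClaim ofRat data Corner.ll piece6 (.var 0) (.var 1))
    (box2 data piece6)
    .leaf = true := by
  refine Few.certify_of_quick ?_
  decide +kernel

def near6_lh : certify false
    (nearClaim ofRat data Corner.lh piece6 (.var 0) (.var 1))
    (box2 data piece6)
    .leaf = true := by
  refine Few.certify_of_quick ?_
  decide +kernel

def near6_hl : certify false
    (nearClaim ofRat data Corner.hl piece6 (.var 0) (.var 1))
    (box2 data piece6)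
    .leaf = true := by
  refine Few.certify_of_quick ?_
  decide +kernel

def near6_hh : certify false
    (nearClaim ofRat data Corner.hh piece6 (.var 0) (.var 1))
    (box2 data piece6)
    .leaf = true := by
  refine Few.certify_of_quick ?_
  decide +kernel

def far6_ll : certify false
    (farClaim ofRat data Corner.ll piece6 (.var 0) (.var 1) (.var 2))
    (box3 data piece6)
    .leaf = true := by
  refine Few.certify_of_quick ?_
  decide +kernel

def far6_lh : certify false
    (farClaim ofRat data Corner.lh piece6 (.var 0) (.var 1) (.var 2))
    (box3 data piece6)
    .leaf = true := by
  refine Few.certify_of_quick ?_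
  decide +kernel

def far6_hl : certify false
    (farClaim ofRat data Corner.hl piece6 (.var 0) (.var 1) (.var 2))
    (box3 data piece6)
    .leaf = true := by
  refine Few.certify_of_quick ?_
  decide +kernel

def far6_hh : certify false
    (farClaim ofRat data Corner.hh piece6 (.var 0) (.var 1) (.var 2))
    (box3 data piece6)
    .leaf = true := by
  refine Few.certify_of_quick ?_
  decide +kernel

def top7 : certify false
    (topExpr piece7)
    (topBox data piece7)
    (.split 0 .leaf .leaf) = true := by
  refine Few.certify_of_quick ?_
  decide +kernel

def low7 : certify false
    (loExpr piece7)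
    (zBox data piece7)
    .leaf = true := by
  refine Few.certify_of_quick ?_
  decide +kernel

def high7 : certify false
    (hiExpr piece7)
    (zBox data piece7)
    .leaf = true := by
  refine Few.certify_of_quick ?_
  decide +kernel

def vertex7_ll : certify true
    (vertex ofRat data Corner.ll piece7 (.var 0) (.var 1))
    (box2 data piece7)
    .leaf = true := by
  decide +kernel

def vertex7_lh : certify true
    (vertex ofRat data Corner.lh piece7 (.var 0) (.var 1))
    (box2 data piece7)
    .leaf = true := by
  decide +kernel

def vertex7_hl : certify true
    (vertex ofRat data Corner.hl piece7 (.var 0) (.var 1))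
    (box2 data piece7)
    .leaf = true := by
  decide +kernel

def vertex7_hh : certify true
    (vertex ofRat data Corner.hh piece7 (.var 0) (.var 1))
    (box2 data piece7)
    .leaf = true := by
  decide +kernel

def near7_ll : certify false
    (nearClaim ofRat data Corner.ll piece7 (.var 0) (.var 1))
    (box2 data piece7)
    .leaf = true := by
  refine Few.certify_of_quick ?_
  decide +kernel

def near7_lh : certify false
    (nearClaim ofRat data Corner.lh piece7 (.var 0) (.var 1))
    (box2 data piece7)
    .leaf = true := by
  refine Few.certify_of_quick ?_
  decide +kernel

def near7_hl : certify false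
    (nearClaim ofRat data Corner.hl piece7 (.var 0) (.var 1))
    (box2 data piece7)
    .leaf = true := by
  refine Few.certify_of_quick ?_
  decide +kernel

def near7_hh : certify false
    (nearClaim ofRat data Corner.hh piece7 (.var 0) (.var 1))
    (box2 data piece7)
    .leaf = true := by
  refine Few.certify_of_quick ?_
  decide +kernel

def far7_ll : certify false
    (farClaim ofRat data Corner.ll piece7 (.var 0) (.var 1) (.var 2))
    (box3 data piece7)
    .leaf = true := by
  refine Few.certify_of_quick ?_
  decide +kernel

def far7_lh : certify false
    (farClaim ofRat data Corner.lh piece7 (.var 0) (.var 1) (.var 2))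
    (box3 data piece7)
    .leaf = true := by
  refine Few.certify_of_quick ?_
  decide +kernel

def far7_hl : certify false
    (farClaim ofRat data Corner.hl piece7 (.var 0) (.var 1) (.var 2))
    (box3 data piece7)
    .leaf = true := by
  refine Few.certify_of_quick ?_
  decide +kernel

def far7_hh : certify false
    (farClaim ofRat data Corner.hh piece7 (.var 0) (.var 1) (.var 2))
    (box3 data piece7)
    .leaf = true := by
  refine Few.certify_of_quick ?_
  decide +kernel

def top8 : certify false
    (topExpr piece8)
    (topBox data piece8)
    (.split 0 .leaf .leaf) = true := by
  refine Few.certify_of_quick ?_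
  decide +kernel

def low8 : certify false
    (loExpr piece8)
    (zBox data piece8)
    .leaf = true := by
  refine Few.certify_of_quick ?_
  decide +kernel

def high8 : certify false
    (hiExpr piece8)
    (zBox data piece8)
    .leaf = true := by
  refine Few.certify_of_quick ?_
  decide +kernel

def vertex8_ll : certify true
    (vertex ofRat data Corner.ll piece8 (.var 0) (.var 1))
    (box2 data piece8)
    .leaf = true := by
  decide +kernel

def vertex8_lh : certify true
    (vertex ofRat data Corner.lh piece8 (.var 0) (.var 1))
    (box2 data piece8)
    .leaf = true := by
  decide +kernel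

def vertex8_hl : certify true
    (vertex ofRat data Corner.hl piece8 (.var 0) (.var 1))
    (box2 data piece8)
    .leaf = true := by
  decide +kernel

def vertex8_hh : certify true
    (vertex ofRat data Corner.hh piece8 (.var 0) (.var 1))
    (box2 data piece8)
    .leaf = true := by
  decide +kernel

def near8_ll : certify false
    (nearClaim ofRat data Corner.ll piece8 (.var 0) (.var 1))
    (box2 data piece8)
    .leaf = true := by
  refine Few.certify_of_quick ?_
  decide +kernel

def near8_lh : certify false
    (nearClaim ofRat data Corner.lh piece8 (.var 0) (.var 1))
    (box2 data piece8)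
    .leaf = true := by
  refine Few.certify_of_quick ?_
  decide +kernel

def near8_hl : certify false
    (nearClaim ofRat data Corner.hl piece8 (.var 0) (.var 1))
    (box2 data piece8)
    .leaf = true := by
  refine Few.certify_of_quick ?_
  decide +kernel

def near8_hh : certify false
    (nearClaim ofRat data Corner.hh piece8 (.var 0) (.var 1))
    (box2 data piece8)
    .leaf = true := by
  refine Few.certify_of_quick ?_
  decide +kernel

def far8_ll : certify false
    (farClaim ofRat data Corner.ll piece8 (.var 0) (.var 1) (.var 2))
    (box3 data piece8)
    .leaf = true := by
  refine Few.certify_of_quick ?_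
  decide +kernel

def far8_lh : certify false
    (farClaim ofRat data Corner.lh piece8 (.var 0) (.var 1) (.var 2))
    (box3 data piece8)
    .leaf = true := by
  refine Few.certify_of_quick ?_
  decide +kernel

def far8_hl : certify false
    (farClaim ofRat data Corner.hl piece8 (.var 0) (.var 1) (.var 2))
    (box3 data piece8)
    .leaf = true := by
  refine Few.certify_of_quick ?_
  decide +kernel

def far8_hh : certify false
    (farClaim ofRat data Corner.hh piece8 (.var 0) (.var 1) (.var 2))
    (box3 data piece8)
    .leaf = true := by
  refine Few.certify_of_quick ?_
  decide +kernel

def top9 : certify false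
    (topExpr piece9)
    (topBox data piece9)
    (.split 0 .leaf .leaf) = true := by
  refine Few.certify_of_quick ?_
  decide +kernel

def low9 : certify false
    (loExpr piece9)
    (zBox data piece9)
    .leaf = true := by
  refine Few.certify_of_quick ?_
  decide +kernel

def high9 : certify false
    (hiExpr piece9)
    (zBox data piece9)
    .leaf = true := by
  refine Few.certify_of_quick ?_
  decide +kernel

def vertex9_ll : certify true
    (vertex ofRat data Corner.ll piece9 (.var 0) (.var 1))
    (box2 data piece9)
    .leaf = true := by
  decide +kernel

def vertex9_lh : certify true
    (vertex ofRat data Corner.lh piece9 (.var 0) (.var 1))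
    (box2 data piece9)
    .leaf = true := by
  decide +kernel

def vertex9_hl : certify true
    (vertex ofRat data Corner.hl piece9 (.var 0) (.var 1))
    (box2 data piece9)
    .leaf = true := by
  decide +kernel

def vertex9_hh : certify true
    (vertex ofRat data Corner.hh piece9 (.var 0) (.var 1))
    (box2 data piece9)
    .leaf = true := by
  decide +kernel

def near9_ll : certify false
    (nearClaim ofRat data Corner.ll piece9 (.var 0) (.var 1))
    (box2 data piece9)
    .leaf = true := by
  refine Few.certify_of_quick ?_
  decide +kernel

def near9_lh : certify false
    (nearClaim ofRat data Corner.lh piece9 (.var 0) (.var 1))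
    (box2 data piece9)
    .leaf = true := by
  refine Few.certify_of_quick ?_
  decide +kernel

def near9_hl : certify false
    (nearClaim ofRat data Corner.hl piece9 (.var 0) (.var 1))
    (box2 data piece9)
    .leaf = true := by
  refine Few.certify_of_quick ?_
  decide +kernel

def near9_hh : certify false
    (nearClaim ofRat data Corner.hh piece9 (.var 0) (.var 1))
    (box2 data piece9)
    .leaf = true := by
  refine Few.certify_of_quick ?_
  decide +kernel

def far9_ll : certify false
    (farClaim ofRat data Corner.ll piece9 (.var 0) (.var 1) (.var 2))
    (box3 data piece9)
    .leaf = true := by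
  refine Few.certify_of_quick ?_
  decide +kernel

def far9_lh : certify false
    (farClaim ofRat data Corner.lh piece9 (.var 0) (.var 1) (.var 2))
    (box3 data piece9)
    .leaf = true := by
  refine Few.certify_of_quick ?_
  decide +kernel

def far9_hl : certify false
    (farClaim ofRat data Corner.hl piece9 (.var 0) (.var 1) (.var 2))
    (box3 data piece9)
    .leaf = true := by
  refine Few.certify_of_quick ?_
  decide +kernel

def far9_hh : certify false
    (farClaim ofRat data Corner.hh piece9 (.var 0) (.var 1) (.var 2))
    (box3 data piece9)
    .leaf = true := by
  refine Few.certify_of_quick ?_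
  decide +kernel

def top10 : certify false
    (topExpr piece10)
    (topBox data piece10)
    (.split 0 .leaf .leaf) = true := by
  refine Few.certify_of_quick ?_
  decide +kernel

def low10 : certify false
    (loExpr piece10)
    (zBox data piece10)
    .leaf = true := by
  refine Few.certify_of_quick ?_
  decide +kernel

def high10 : certify false
    (hiExpr piece10)
    (zBox data piece10)
    .leaf = true := by
  refine Few.certify_of_quick ?_
  decide +kernel

def vertex10_ll : certify true
    (vertex ofRat data Corner.ll piece10 (.var 0) (.var 1))
    (box2 data piece10)
    .leaf = true := by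
  decide +kernel

def vertex10_lh : certify true
    (vertex ofRat data Corner.lh piece10 (.var 0) (.var 1))
    (box2 data piece10)
    .leaf = true := by
  decide +kernel

def vertex10_hl : certify true
    (vertex ofRat data Corner.hl piece10 (.var 0) (.var 1))
    (box2 data piece10)
    .leaf = true := by
  decide +kernel

def vertex10_hh : certify true
    (vertex ofRat data Corner.hh piece10 (.var 0) (.var 1))
    (box2 data piece10)
    .leaf = true := by
  decide +kernel

def near10_ll : certify false
    (nearClaim ofRat data Corner.ll piece10 (.var 0) (.var 1))
    (box2 data piece10)
    .leaf = true := by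
  refine Few.certify_of_quick ?_
  decide +kernel

def near10_lh : certify false
    (nearClaim ofRat data Corner.lh piece10 (.var 0) (.var 1))
    (box2 data piece10)
    .leaf = true := by
  refine Few.certify_of_quick ?_
  decide +kernel

def near10_hl : certify false
    (nearClaim ofRat data Corner.hl piece10 (.var 0) (.var 1))
    (box2 data piece10)
    .leaf = true := by
  refine Few.certify_of_quick ?_
  decide +kernel

def near10_hh : certify false
    (nearClaim ofRat data Corner.hh piece10 (.var 0) (.var 1))
    (box2 data piece10)
    .leaf = true := by
  refine Few.certify_of_quick ?_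
  decide +kernel

def far10_ll : certify false
    (farClaim ofRat data Corner.ll piece10 (.var 0) (.var 1) (.var 2))
    (box3 data piece10)
    .leaf = true := by
  refine Few.certify_of_quick ?_
  decide +kernel

def far10_lh : certify false
    (farClaim ofRat data Corner.lh piece10 (.var 0) (.var 1) (.var 2))
    (box3 data piece10)
    .leaf = true := by
  refine Few.certify_of_quick ?_
  decide +kernel

def far10_hl : certify false
    (farClaim ofRat data Corner.hl piece10 (.var 0) (.var 1) (.var 2))
    (box3 data piece10)
    .leaf = true := by
  refine Few.certify_of_quick ?_
  decide +kernel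

def far10_hh : certify false
    (farClaim ofRat data Corner.hh piece10 (.var 0) (.var 1) (.var 2))
    (box3 data piece10)
    .leaf = true := by
  refine Few.certify_of_quick ?_
  decide +kernel

def top11 : certify false
    (topExpr piece11)
    (topBox data piece11)
    (.split 0 .leaf .leaf) = true := by
  refine Few.certify_of_quick ?_
  decide +kernel

def low11 : certify false
    (loExpr piece11)
    (zBox data piece11)
    (.split 0 .leaf .leaf) = true := by
  refine Few.certify_of_quick ?_
  decide +kernel

def high11 : certify false
    (hiExpr piece11)
    (zBox data piece11)
    .leaf = true := by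
  refine Few.certify_of_quick ?_
  decide +kernel

def far11_ll : certify false
    (farClaim ofRat data Corner.ll piece11 (.var 0) (.var 1) (.var 2))
    (box3 data piece11)
    .leaf = true := by
  refine Few.certify_of_quick ?_
  decide +kernel

def far11_lh : certify false
    (farClaim ofRat data Corner.lh piece11 (.var 0) (.var 1) (.var 2))
    (box3 data piece11)
    .leaf = true := by
  refine Few.certify_of_quick ?_
  decide +kernel

def far11_hl : certify false
    (farClaim ofRat data Corner.hl piece11 (.var 0) (.var 1) (.var 2))
    (box3 data piece11)
    .leaf = true := by
  refine Few.certify_of_quick ?_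
  decide +kernel

def far11_hh : certify false
    (farClaim ofRat data Corner.hh piece11 (.var 0) (.var 1) (.var 2))
    (box3 data piece11)
    .leaf = true := by
  refine Few.certify_of_quick ?_
  decide +kernel

def below11_ll : certify false
    (lowClaim ofRat data Corner.ll piece11 (.var 0) (.var 1) (.var 2))
    (box3 data piece11)
    (.split 2 .leaf (.split 2 .leaf (.split 2 .leaf (.split 2 .leaf .leaf)))) = true := by
  refine Few.certify_of_quick ?_
  decide +kernel

def below11_lh : certify false
    (lowClaim ofRat data Corner.lh piece11 (.var 0) (.var 1) (.var 2))
    (box3 data piece11)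
    (.split 2 .leaf (.split 2 .leaf (.split 2 .leaf (.split 2 .leaf .leaf)))) = true := by
  refine Few.certify_of_quick ?_
  decide +kernel

def below11_hl : certify false
    (lowClaim ofRat data Corner.hl piece11 (.var 0) (.var 1) (.var 2))
    (box3 data piece11)
    (.split 2 .leaf (.split 2 .leaf (.split 2 .leaf (.split 2 .leaf .leaf)))) = true := by
  refine Few.certify_of_quick ?_
  decide +kernel

def below11_hh : certify false
    (lowClaim ofRat data Corner.hh piece11 (.var 0) (.var 1) (.var 2))
    (box3 data piece11)
    (.split 2 .leaf (.split 2 .leaf (.split 2 .leaf (.split 2 .leaf .leaf)))) = true := by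
  refine Few.certify_of_quick ?_
  decide +kernel

def top12 : certify false
    (topExpr piece12)
    (topBox data piece12)
    (.split 0 .leaf .leaf) = true := by
  refine Few.certify_of_quick ?_
  decide +kernel

def low12 : certify false
    (loExpr piece12)
    (zBox data piece12)
    (.split 0 .leaf .leaf) = true := by
  refine Few.certify_of_quick ?_
  decide +kernel

def high12 : certify false
    (hiExpr piece12)
    (zBox data piece12)
    .leaf = true := by
  refine Few.certify_of_quick ?_
  decide +kernel

def far12_ll : certify false
    (farClaim ofRat data Corner.ll piece12 (.var 0) (.var 1) (.var 2))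
    (box3 data piece12)
    .leaf = true := by
  refine Few.certify_of_quick ?_
  decide +kernel

def far12_lh : certify false
    (farClaim ofRat data Corner.lh piece12 (.var 0) (.var 1) (.var 2))
    (box3 data piece12)
    .leaf = true := by
  refine Few.certify_of_quick ?_
  decide +kernel

def far12_hl : certify false
    (farClaim ofRat data Corner.hl piece12 (.var 0) (.var 1) (.var 2))
    (box3 data piece12)
    .leaf = true := by
  refine Few.certify_of_quick ?_
  decide +kernel

def far12_hh : certify false
    (farClaim ofRat data Corner.hh piece12 (.var 0) (.var 1) (.var 2))
    (box3 data piece12)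
    .leaf = true := by
  refine Few.certify_of_quick ?_
  decide +kernel

def below12_ll : certify false
    (lowClaim ofRat data Corner.ll piece12 (.var 0) (.var 1) (.var 2))
    (box3 data piece12)
    (.split 2 .leaf (.split 2 .leaf (.split 0 (.split 2 .leaf (.split 2 .leaf .leaf)) (.split
      2 .leaf (.split 2 .leaf .leaf))))) = true := by
  refine Few.certify_of_quick ?_
  decide +kernel

end Vale.Agent.P237.Petty.Cor.Mid32.Cell5
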