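import Vale.Agent.P237.Petty.Cor.Few.Mask
import Vale.Agent.P237.Petty.Cor.Mid50.Good
import Vale.Agent.P237.Petty.Cor.Mid32.Cell5.Data

/-!
# P237: certificates of the cell from `25 / (p + 2)` to `1`, `31 ≤ p ≤ 47`, part 3
-/

namespace Vale.Agent.P237.Petty.Cor.Mid32.Cell5

open Mid50 P100.Bernstein

def below12_lh : certify false
    (lowClaim ofRat data Corner.lh piece12 (.var 0) (.var 1) (.var 2))
    (box3 data piece12)
    (.split 2 .leaf (.split 2 .leaf (.split 2 .leaf (.split 2 .leaf .leaf)))) = true := by
  refine Few.certify_of_quick ?_
  decide +kernel

def below12_hl : certify false
    (lowClaim ofRat data Corner.hl piece12 (.var 0) (.var 1) (.var 2))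
    (box3 data piece12)
    (.split 2 .leaf (.split 2 .leaf (.split 2 .leaf (.split 2 .leaf .leaf)))) = true := by
  refine Few.certify_of_quick ?_
  decide +kernel

def below12_hh : certify false
    (lowClaim ofRat data Corner.hh piece12 (.var 0) (.var 1) (.var 2))
    (box3 data piece12)
    (.split 2 .leaf (.split 2 .leaf (.split 2 .leaf (.split 2 .leaf .leaf)))) = true := by
  refine Few.certify_of_quick ?_
  decide +kernel

def top13 : certify false
    (topExpr piece13)
    (topBox data piece13)
    (.split 0 .leaf .leaf) = true := by
  refine Few.certify_of_quick ?_
  decide +kernel

def low13 : certify false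
    (loExpr piece13)
    (zBox data piece13)
    (.split 0 .leaf .leaf) = true := by
  refine Few.certify_of_quick ?_
  decide +kernel

def high13 : certify false
    (hiExpr piece13)
    (zBox data piece13)
    .leaf = true := by
  refine Few.certify_of_quick ?_
  decide +kernel

def far13_ll : certify false
    (farClaim ofRat data Corner.ll piece13 (.var 0) (.var 1) (.var 2))
    (box3 data piece13)
    .leaf = true := by
  refine Few.certify_of_quick ?_
  decide +kernel

def far13_lh : certify false
    (farClaim ofRat data Corner.lh piece13 (.var 0) (.var 1) (.var 2))
    (box3 data piece13)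
    .leaf = true := by
  refine Few.certify_of_quick ?_
  decide +kernel

def far13_hl : certify false
    (farClaim ofRat data Corner.hl piece13 (.var 0) (.var 1) (.var 2))
    (box3 data piece13)
    .leaf = true := by
  refine Few.certify_of_quick ?_
  decide +kernel

def far13_hh : certify false
    (farClaim ofRat data Corner.hh piece13 (.var 0) (.var 1) (.var 2))
    (box3 data piece13)
    .leaf = true := by
  refine Few.certify_of_quick ?_
  decide +kernel

def below13_ll : certify false
    (lowClaim ofRat data Corner.ll piece13 (.var 0) (.var 1) (.var 2))
    (box3 data piece13)
    (.split 2 .leaf (.split 2 .leaf (.split 2 .leaf (.split 2 .leaf .leaf)))) = true := by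
  refine Few.certify_of_quick ?_
  decide +kernel

def below13_lh : certify false
    (lowClaim ofRat data Corner.lh piece13 (.var 0) (.var 1) (.var 2))
    (box3 data piece13)
    (.split 2 .leaf (.split 2 .leaf (.split 2 .leaf .leaf))) = true := by
  refine Few.certify_of_quick ?_
  decide +kernel

def below13_hl : certify false
    (lowClaim ofRat data Corner.hl piece13 (.var 0) (.var 1) (.var 2))
    (box3 data piece13)
    (.split 2 .leaf (.split 2 .leaf (.split 2 .leaf (.split 2 .leaf .leaf)))) = true := by
  refine Few.certify_of_quick ?_
  decide +kernel

def below13_hh : certify false
    (lowClaim ofRat data Corner.hh piece13 (.var 0) (.var 1) (.var 2))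
    (box3 data piece13)
    (.split 2 .leaf (.split 2 .leaf (.split 2 .leaf .leaf))) = true := by
  refine Few.certify_of_quick ?_
  decide +kernel

def top14 : certify false
    (topExpr piece14)
    (topBox data piece14)
    (.split 0 .leaf .leaf) = true := by
  refine Few.certify_of_quick ?_
  decide +kernel

def low14 : certify false
    (loExpr piece14)
    (zBox data piece14)
    (.split 0 .leaf .leaf) = true := by
  refine Few.certify_of_quick ?_
  decide +kernel

def high14 : certify false
    (hiExpr piece14)
    (zBox data piece14)
    .leaf = true := by
  refine Few.certify_of_quick ?_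
  decide +kernel

def far14_ll : certify false
    (farClaim ofRat data Corner.ll piece14 (.var 0) (.var 1) (.var 2))
    (box3 data piece14)
    .leaf = true := by
  refine Few.certify_of_quick ?_
  decide +kernel

def far14_lh : certify false
    (farClaim ofRat data Corner.lh piece14 (.var 0) (.var 1) (.var 2))
    (box3 data piece14)
    .leaf = true := by
  refine Few.certify_of_quick ?_
  decide +kernel

def far14_hl : certify false
    (farClaim ofRat data Corner.hl piece14 (.var 0) (.var 1) (.var 2))
    (box3 data piece14)
    .leaf = true := by
  refine Few.certify_of_quick ?_
  decide +kernel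

def far14_hh : certify false
    (farClaim ofRat data Corner.hh piece14 (.var 0) (.var 1) (.var 2))
    (box3 data piece14)
    .leaf = true := by
  refine Few.certify_of_quick ?_
  decide +kernel

def below14_ll : certify false
    (lowClaim ofRat data Corner.ll piece14 (.var 0) (.var 1) (.var 2))
    (box3 data piece14)
    (.split 2 .leaf (.split 2 .leaf (.split 2 .leaf .leaf))) = true := by
  refine Few.certify_of_quick ?_
  decide +kernel

def below14_lh : certify false
    (lowClaim ofRat data Corner.lh piece14 (.var 0) (.var 1) (.var 2))
    (box3 data piece14)
    (.split 2 .leaf (.split 2 .leaf (.split 2 .leaf .leaf))) = true := by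
  refine Few.certify_of_quick ?_
  decide +kernel

def below14_hl : certify false
    (lowClaim ofRat data Corner.hl piece14 (.var 0) (.var 1) (.var 2))
    (box3 data piece14)
    (.split 2 .leaf (.split 2 .leaf (.split 2 .leaf .leaf))) = true := by
  refine Few.certify_of_quick ?_
  decide +kernel

def below14_hh : certify false
    (lowClaim ofRat data Corner.hh piece14 (.var 0) (.var 1) (.var 2))
    (box3 data piece14)
    (.split 2 .leaf (.split 2 .leaf (.split 2 .leaf .leaf))) = true := by
  refine Few.certify_of_quick ?_
  decide +kernel

def top15 : certify false
    (topExpr piece15)
    (topBox data piece15)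
    (.split 0 .leaf .leaf) = true := by
  refine Few.certify_of_quick ?_
  decide +kernel

def low15 : certify false
    (loExpr piece15)
    (zBox data piece15)
    (.split 0 .leaf .leaf) = true := by
  refine Few.certify_of_quick ?_
  decide +kernel

def high15 : certify false
    (hiExpr piece15)
    (zBox data piece15)
    .leaf = true := by
  refine Few.certify_of_quick ?_
  decide +kernel

def far15_ll : certify false
    (farClaim ofRat data Corner.ll piece15 (.var 0) (.var 1) (.var 2))
    (box3 data piece15)
    .leaf = true := by
  refine Few.certify_of_quick ?_
  decide +kernel

def far15_lh : certify false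
    (farClaim ofRat data Corner.lh piece15 (.var 0) (.var 1) (.var 2))
    (box3 data piece15)
    .leaf = true := by
  refine Few.certify_of_quick ?_
  decide +kernel

def far15_hl : certify false
    (farClaim ofRat data Corner.hl piece15 (.var 0) (.var 1) (.var 2))
    (box3 data piece15)
    .leaf = true := by
  refine Few.certify_of_quick ?_
  decide +kernel

def far15_hh : certify false
    (farClaim ofRat data Corner.hh piece15 (.var 0) (.var 1) (.var 2))
    (box3 data piece15)
    .leaf = true := by
  refine Few.certify_of_quick ?_
  decide +kernel

def below15_ll : certify false
    (lowClaim ofRat data Corner.ll piece15 (.var 0) (.var 1) (.var 2))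
    (box3 data piece15)
    (.split 2 .leaf (.split 2 .leaf (.split 2 .leaf .leaf))) = true := by
  refine Few.certify_of_quick ?_
  decide +kernel

def below15_lh : certify false
    (lowClaim ofRat data Corner.lh piece15 (.var 0) (.var 1) (.var 2))
    (box3 data piece15)
    (.split 2 .leaf (.split 2 .leaf .leaf)) = true := by
  refine Few.certify_of_quick ?_
  decide +kernel

def below15_hl : certify false
    (lowClaim ofRat data Corner.hl piece15 (.var 0) (.var 1) (.var 2))
    (box3 data piece15)
    (.split 2 .leaf (.split 2 .leaf (.split 2 .leaf .leaf))) = true := by
  refine Few.certify_of_quick ?_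
  decide +kernel

def below15_hh : certify false
    (lowClaim ofRat data Corner.hh piece15 (.var 0) (.var 1) (.var 2))
    (box3 data piece15)
    (.split 2 .leaf (.split 2 .leaf .leaf)) = true := by
  refine Few.certify_of_quick ?_
  decide +kernel

def top16 : certify false
    (topExpr piece16)
    (topBox data piece16)
    (.split 0 .leaf .leaf) = true := by
  refine Few.certify_of_quick ?_
  decide +kernel

def low16 : certify false
    (loExpr piece16)
    (zBox data piece16)
    (.split 0 .leaf .leaf) = true := by
  refine Few.certify_of_quick ?_
  decide +kernel

def high16 : certify false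
    (hiExpr piece16)
    (zBox data piece16)
    .leaf = true := by
  refine Few.certify_of_quick ?_
  decide +kernel

def far16_ll : certify false
    (farClaim ofRat data Corner.ll piece16 (.var 0) (.var 1) (.var 2))
    (box3 data piece16)
    .leaf = true := by
  refine Few.certify_of_quick ?_
  decide +kernel

def far16_lh : certify false
    (farClaim ofRat data Corner.lh piece16 (.var 0) (.var 1) (.var 2))
    (box3 data piece16)
    .leaf = true := by
  refine Few.certify_of_quick ?_
  decide +kernel

def far16_hl : certify false
    (farClaim ofRat data Corner.hl piece16 (.var 0) (.var 1) (.var 2))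
    (box3 data piece16)
    .leaf = true := by
  refine Few.certify_of_quick ?_
  decide +kernel

def far16_hh : certify false
    (farClaim ofRat data Corner.hh piece16 (.var 0) (.var 1) (.var 2))
    (box3 data piece16)
    .leaf = true := by
  refine Few.certify_of_quick ?_
  decide +kernel

def below16_ll : certify false
    (lowClaim ofRat data Corner.ll piece16 (.var 0) (.var 1) (.var 2))
    (box3 data piece16)
    (.split 2 .leaf (.split 2 .leaf .leaf)) = true := by
  refine Few.certify_of_quick ?_
  decide +kernel

def below16_lh : certify false
    (lowClaim ofRat data Corner.lh piece16 (.var 0) (.var 1) (.var 2))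
    (box3 data piece16)
    (.split 2 .leaf (.split 2 .leaf .leaf)) = true := by
  refine Few.certify_of_quick ?_
  decide +kernel

def below16_hl : certify false
    (lowClaim ofRat data Corner.hl piece16 (.var 0) (.var 1) (.var 2))
    (box3 data piece16)
    (.split 2 .leaf (.split 2 .leaf .leaf)) = true := by
  refine Few.certify_of_quick ?_
  decide +kernel

def below16_hh : certify false
    (lowClaim ofRat data Corner.hh piece16 (.var 0) (.var 1) (.var 2))
    (box3 data piece16)
    (.split 2 .leaf (.split 2 .leaf .leaf)) = true := by
  refine Few.certify_of_quick ?_
  decide +kernel

def top17 : certify false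
    (topExpr piece17)
    (topBox data piece17)
    (.split 0 .leaf .leaf) = true := by
  refine Few.certify_of_quick ?_
  decide +kernel

def low17 : certify false
    (loExpr piece17)
    (zBox data piece17)
    (.split 0 .leaf .leaf) = true := by
  refine Few.certify_of_quick ?_
  decide +kernel

def high17 : certify false
    (hiExpr piece17)
    (zBox data piece17)
    .leaf = true := by
  refine Few.certify_of_quick ?_
  decide +kernel

def far17_ll : certify false
    (farClaim ofRat data Corner.ll piece17 (.var 0) (.var 1) (.var 2))
    (box3 data piece17)
    .leaf = true := by
  refine Few.certify_of_quick ?_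
  decide +kernel

def far17_lh : certify false
    (farClaim ofRat data Corner.lh piece17 (.var 0) (.var 1) (.var 2))
    (box3 data piece17)
    .leaf = true := by
  refine Few.certify_of_quick ?_
  decide +kernel

def far17_hl : certify false
    (farClaim ofRat data Corner.hl piece17 (.var 0) (.var 1) (.var 2))
    (box3 data piece17)
    .leaf = true := by
  refine Few.certify_of_quick ?_
  decide +kernel

def far17_hh : certify false
    (farClaim ofRat data Corner.hh piece17 (.var 0) (.var 1) (.var 2))
    (box3 data piece17)
    .leaf = true := by
  refine Few.certify_of_quick ?_
  decide +kernel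

def below17_ll : certify false
    (lowClaim ofRat data Corner.ll piece17 (.var 0) (.var 1) (.var 2))
    (box3 data piece17)
    (.split 2 .leaf .leaf) = true := by
  refine Few.certify_of_quick ?_
  decide +kernel

def below17_lh : certify false
    (lowClaim ofRat data Corner.lh piece17 (.var 0) (.var 1) (.var 2))
    (box3 data piece17)
    (.split 2 .leaf .leaf) = true := by
  refine Few.certify_of_quick ?_
  decide +kernel

def below17_hl : certify false
    (lowClaim ofRat data Corner.hl piece17 (.var 0) (.var 1) (.var 2))
    (box3 data piece17)
    (.split 2 .leaf .leaf) = true := by
  refine Few.certify_of_quick ?_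
  decide +kernel

def below17_hh : certify false
    (lowClaim ofRat data Corner.hh piece17 (.var 0) (.var 1) (.var 2))
    (box3 data piece17)
    (.split 2 .leaf .leaf) = true := by
  refine Few.certify_of_quick ?_
  decide +kernel

def top18 : certify false
    (topExpr piece18)
    (topBox data piece18)
    (.split 0 .leaf .leaf) = true := by
  refine Few.certify_of_quick ?_
  decide +kernel

def low18 : certify false
    (loExpr piece18)
    (zBox data piece18)
    (.split 0 .leaf .leaf) = true := by
  refine Few.certify_of_quick ?_
  decide +kernel

def high18 : certify false
    (hiExpr piece18)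
    (zBox data piece18)
    .leaf = true := by
  refine Few.certify_of_quick ?_
  decide +kernel

def far18_ll : certify false
    (farClaim ofRat data Corner.ll piece18 (.var 0) (.var 1) (.var 2))
    (box3 data piece18)
    .leaf = true := by
  refine Few.certify_of_quick ?_
  decide +kernel

def far18_lh : certify false
    (farClaim ofRat data Corner.lh piece18 (.var 0) (.var 1) (.var 2))
    (box3 data piece18)
    .leaf = true := by
  refine Few.certify_of_quick ?_
  decide +kernel

def far18_hl : certify false
    (farClaim ofRat data Corner.hl piece18 (.var 0) (.var 1) (.var 2))
    (box3 data piece18)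
    .leaf = true := by
  refine Few.certify_of_quick ?_
  decide +kernel

def far18_hh : certify false
    (farClaim ofRat data Corner.hh piece18 (.var 0) (.var 1) (.var 2))
    (box3 data piece18)
    .leaf = true := by
  refine Few.certify_of_quick ?_
  decide +kernel

def below18_ll : certify false
    (lowClaim ofRat data Corner.ll piece18 (.var 0) (.var 1) (.var 2))
    (box3 data piece18)
    .leaf = true := by
  refine Few.certify_of_quick ?_
  decide +kernel

def below18_lh : certify false
    (lowClaim ofRat data Corner.lh piece18 (.var 0) (.var 1) (.var 2))
    (box3 data piece18)
    .leaf = true := by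
  refine Few.certify_of_quick ?_
  decide +kernel

def below18_hl : certify false
    (lowClaim ofRat data Corner.hl piece18 (.var 0) (.var 1) (.var 2))
    (box3 data piece18)
    .leaf = true := by
  refine Few.certify_of_quick ?_
  decide +kernel

def below18_hh : certify false
    (lowClaim ofRat data Corner.hh piece18 (.var 0) (.var 1) (.var 2))
    (box3 data piece18)
    .leaf = true := by
  refine Few.certify_of_quick ?_
  decide +kernel

def top19 : certify false
    (topExpr piece19)
    (topBox data piece19)
    (.split 0 .leaf .leaf) = true := by
  refine Few.certify_of_quick ?_
  decide +kernel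

def low19 : certify false
    (loExpr piece19)
    (zBox data piece19)
    (.split 0 .leaf .leaf) = true := by
  refine Few.certify_of_quick ?_
  decide +kernel

def high19 : certify false
    (hiExpr piece19)
    (zBox data piece19)
    .leaf = true := by
  refine Few.certify_of_quick ?_
  decide +kernel

def far19_ll : certify false
    (farClaim ofRat data Corner.ll piece19 (.var 0) (.var 1) (.var 2))
    (box3 data piece19)
    .leaf = true := by
  refine Few.certify_of_quick ?_
  decide +kernel

def far19_lh : certify false
    (farClaim ofRat data Corner.lh piece19 (.var 0) (.var 1) (.var 2))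
    (box3 data piece19)
    .leaf = true := by
  refine Few.certify_of_quick ?_
  decide +kernel

def far19_hl : certify false
    (farClaim ofRat data Corner.hl piece19 (.var 0) (.var 1) (.var 2))
    (box3 data piece19)
    .leaf = true := by
  refine Few.certify_of_quick ?_
  decide +kernel

end Vale.Agent.P237.Petty.Cor.Mid32.Cell5
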