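import Vale.Agent.P237.Petty.Cor.Few.Mask
import Vale.Agent.P237.Petty.Cor.Mid50.Good
import Vale.Agent.P237.Petty.Cor.Mid32.Cell5.Data

/-!
# P237: certificates of the cell from `25 / (p + 2)` to `1`, `31 ≤ p ≤ 47`, part 5
-/

namespace Vale.Agent.P237.Petty.Cor.Mid32.Cell5

open Mid50 P100.Bernstein

theorem below31_ll : certify false
    (lowClaim ofRat data Corner.ll piece31 (.var 0) (.var 1) (.var 2))
    (box3 data piece31)
    .leaf = true := by
  refine Few.certify_of_quick ?_
  decide +kernel

theorem below31_lh : certify false
    (lowClaim ofRat data Corner.lh piece31 (.var 0) (.var 1) (.var 2))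
    (box3 data piece31)
    .leaf = true := by
  refine Few.certify_of_quick ?_
  decide +kernel

theorem below31_hl : certify false
    (lowClaim ofRat data Corner.hl piece31 (.var 0) (.var 1) (.var 2))
    (box3 data piece31)
    .leaf = true := by
  refine Few.certify_of_quick ?_
  decide +kernel

theorem below31_hh : certify false
    (lowClaim ofRat data Corner.hh piece31 (.var 0) (.var 1) (.var 2))
    (box3 data piece31)
    .leaf = true := by
  refine Few.certify_of_quick ?_
  decide +kernel

theorem top32 : certify false
    (topExpr piece32)
    (topBox data piece32)
    (.split 0 .leaf .leaf) = true := by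
  refine Few.certify_of_quick ?_
  decide +kernel

theorem low32 : certify false
    (loExpr piece32)
    (zBox data piece32)
    .leaf = true := by
  refine Few.certify_of_quick ?_
  decide +kernel

theorem high32 : certify false
    (hiExpr piece32)
    (zBox data piece32)
    .leaf = true := by
  refine Few.certify_of_quick ?_
  decide +kernel

theorem far32_ll : certify false
    (farClaim ofRat data Corner.ll piece32 (.var 0) (.var 1) (.var 2))
    (box3 data piece32)
    .leaf = true := by
  refine Few.certify_of_quick ?_
  decide +kernel

theorem far32_lh : certify false
    (farClaim ofRat data Corner.lh piece32 (.var 0) (.var 1) (.var 2))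
    (box3 data piece32)
    .leaf = true := by
  refine Few.certify_of_quick ?_
  decide +kernel

theorem far32_hl : certify false
    (farClaim ofRat data Corner.hl piece32 (.var 0) (.var 1) (.var 2))
    (box3 data piece32)
    .leaf = true := by
  refine Few.certify_of_quick ?_
  decide +kernel

theorem far32_hh : certify false
    (farClaim ofRat data Corner.hh piece32 (.var 0) (.var 1) (.var 2))
    (box3 data piece32)
    .leaf = true := by
  refine Few.certify_of_quick ?_
  decide +kernel

theorem below32_ll : certify false
    (lowClaim ofRat data Corner.ll piece32 (.var 0) (.var 1) (.var 2))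
    (box3 data piece32)
    .leaf = true := by
  refine Few.certify_of_quick ?_
  decide +kernel

theorem below32_lh : certify false
    (lowClaim ofRat data Corner.lh piece32 (.var 0) (.var 1) (.var 2))
    (box3 data piece32)
    .leaf = true := by
  refine Few.certify_of_quick ?_
  decide +kernel

theorem below32_hl : certify false
    (lowClaim ofRat data Corner.hl piece32 (.var 0) (.var 1) (.var 2))
    (box3 data piece32)
    .leaf = true := by
  refine Few.certify_of_quick ?_
  decide +kernel

theorem below32_hh : certify false
    (lowClaim ofRat data Corner.hh piece32 (.var 0) (.var 1) (.var 2))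
    (box3 data piece32)
    .leaf = true := by
  refine Few.certify_of_quick ?_
  decide +kernel

end Vale.Agent.P237.Petty.Cor.Mid32.Cell5
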