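import Vale.Agent.P237.Petty.Cor.Mid32.Cell5.Cert1
import Vale.Agent.P237.Petty.Cor.Mid32.Cell5.Cert2
import Vale.Agent.P237.Petty.Cor.Mid32.Cell5.Cert3
import Vale.Agent.P237.Petty.Cor.Mid32.Cell5.Cert4
import Vale.Agent.P237.Petty.Cor.Mid32.Cell5.Cert5

/-!
# P237: the pieces of the cell from `25 / (p + 2)` to `1`, `31 ≤ p ≤ 47`
-/

namespace Vale.Agent.P237.Petty.Cor.Mid32.Cell5

open Mid50 P100.Bernstein

theorem checks1 : Checks data piece1 where
  top := ⟨_, top1⟩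
  low := ⟨_, low1⟩
  high := ⟨_, high1⟩
  below h := nomatch h
  vertex _ i := match i with
    | .ll => ⟨_, vertex1_ll⟩
    | .lh => ⟨_, vertex1_lh⟩
    | .hl => ⟨_, vertex1_hl⟩
    | .hh => ⟨_, vertex1_hh⟩
  near _ i := match i with
    | .ll => ⟨_, near1_ll⟩
    | .lh => ⟨_, near1_lh⟩
    | .hl => ⟨_, near1_hl⟩
    | .hh => ⟨_, near1_hh⟩
  far i := match i with
    | .ll => ⟨_, far1_ll⟩
    | .lh => ⟨_, far1_lh⟩
    | .hl => ⟨_, far1_hl⟩
    | .hh => ⟨_, far1_hh⟩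

theorem checks2 : Checks data piece2 where
  top := ⟨_, top2⟩
  low := ⟨_, low2⟩
  high := ⟨_, high2⟩
  below h := nomatch h
  vertex _ i := match i with
    | .ll => ⟨_, vertex2_ll⟩
    | .lh => ⟨_, vertex2_lh⟩
    | .hl => ⟨_, vertex2_hl⟩
    | .hh => ⟨_, vertex2_hh⟩
  near _ i := match i with
    | .ll => ⟨_, near2_ll⟩
    | .lh => ⟨_, near2_lh⟩
    | .hl => ⟨_, near2_hl⟩
    | .hh => ⟨_, near2_hh⟩
  far i := match i with
    | .ll => ⟨_, far2_ll⟩
    | .lh => ⟨_, far2_lh⟩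
    | .hl => ⟨_, far2_hl⟩
    | .hh => ⟨_, far2_hh⟩

theorem checks3 : Checks data piece3 where
  top := ⟨_, top3⟩
  low := ⟨_, low3⟩
  high := ⟨_, high3⟩
  below h := nomatch h
  vertex _ i := match i with
    | .ll => ⟨_, vertex3_ll⟩
    | .lh => ⟨_, vertex3_lh⟩
    | .hl => ⟨_, vertex3_hl⟩
    | .hh => ⟨_, vertex3_hh⟩
  near _ i := match i with
    | .ll => ⟨_, near3_ll⟩
    | .lh => ⟨_, near3_lh⟩
    | .hl => ⟨_, near3_hl⟩
    | .hh => ⟨_, near3_hh⟩
  far i := match i with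
    | .ll => ⟨_, far3_ll⟩
    | .lh => ⟨_, far3_lh⟩
    | .hl => ⟨_, far3_hl⟩
    | .hh => ⟨_, far3_hh⟩

theorem checks4 : Checks data piece4 where
  top := ⟨_, top4⟩
  low := ⟨_, low4⟩
  high := ⟨_, high4⟩
  below h := nomatch h
  vertex _ i := match i with
    | .ll => ⟨_, vertex4_ll⟩
    | .lh => ⟨_, vertex4_lh⟩
    | .hl => ⟨_, vertex4_hl⟩
    | .hh => ⟨_, vertex4_hh⟩
  near _ i := match i with
    | .ll => ⟨_, near4_ll⟩
    | .lh => ⟨_, near4_lh⟩
    | .hl => ⟨_, near4_hl⟩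
    | .hh => ⟨_, near4_hh⟩
  far i := match i with
    | .ll => ⟨_, far4_ll⟩
    | .lh => ⟨_, far4_lh⟩
    | .hl => ⟨_, far4_hl⟩
    | .hh => ⟨_, far4_hh⟩

theorem checks5 : Checks data piece5 where
  top := ⟨_, top5⟩
  low := ⟨_, low5⟩
  high := ⟨_, high5⟩
  below h := nomatch h
  vertex _ i := match i with
    | .ll => ⟨_, vertex5_ll⟩
    | .lh => ⟨_, vertex5_lh⟩
    | .hl => ⟨_, vertex5_hl⟩
    | .hh => ⟨_, vertex5_hh⟩
  near _ i := match i with
    | .ll => ⟨_, near5_ll⟩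
    | .lh => ⟨_, near5_lh⟩
    | .hl => ⟨_, near5_hl⟩
    | .hh => ⟨_, near5_hh⟩
  far i := match i with
    | .ll => ⟨_, far5_ll⟩
    | .lh => ⟨_, far5_lh⟩
    | .hl => ⟨_, far5_hl⟩
    | .hh => ⟨_, far5_hh⟩

theorem checks6 : Checks data piece6 where
  top := ⟨_, top6⟩
  low := ⟨_, low6⟩
  high := ⟨_, high6⟩
  below h := nomatch h
  vertex _ i := match i with
    | .ll => ⟨_, vertex6_ll⟩
    | .lh => ⟨_, vertex6_lh⟩
    | .hl => ⟨_, vertex6_hl⟩
    | .hh => ⟨_, vertex6_hh⟩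
  near _ i := match i with
    | .ll => ⟨_, near6_ll⟩
    | .lh => ⟨_, near6_lh⟩
    | .hl => ⟨_, near6_hl⟩
    | .hh => ⟨_, near6_hh⟩
  far i := match i with
    | .ll => ⟨_, far6_ll⟩
    | .lh => ⟨_, far6_lh⟩
    | .hl => ⟨_, far6_hl⟩
    | .hh => ⟨_, far6_hh⟩

theorem checks7 : Checks data piece7 where
  top := ⟨_, top7⟩
  low := ⟨_, low7⟩
  high := ⟨_, high7⟩
  below h := nomatch h
  vertex _ i := match i with
    | .ll => ⟨_, vertex7_ll⟩
    | .lh => ⟨_, vertex7_lh⟩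
    | .hl => ⟨_, vertex7_hl⟩
    | .hh => ⟨_, vertex7_hh⟩
  near _ i := match i with
    | .ll => ⟨_, near7_ll⟩
    | .lh => ⟨_, near7_lh⟩
    | .hl => ⟨_, near7_hl⟩
    | .hh => ⟨_, near7_hh⟩
  far i := match i with
    | .ll => ⟨_, far7_ll⟩
    | .lh => ⟨_, far7_lh⟩
    | .hl => ⟨_, far7_hl⟩
    | .hh => ⟨_, far7_hh⟩

theorem checks8 : Checks data piece8 where
  top := ⟨_, top8⟩
  low := ⟨_, low8⟩
  high := ⟨_, high8⟩
  below h := nomatch h
  vertex _ i := match i with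
    | .ll => ⟨_, vertex8_ll⟩
    | .lh => ⟨_, vertex8_lh⟩
    | .hl => ⟨_, vertex8_hl⟩
    | .hh => ⟨_, vertex8_hh⟩
  near _ i := match i with
    | .ll => ⟨_, near8_ll⟩
    | .lh => ⟨_, near8_lh⟩
    | .hl => ⟨_, near8_hl⟩
    | .hh => ⟨_, near8_hh⟩
  far i := match i with
    | .ll => ⟨_, far8_ll⟩
    | .lh => ⟨_, far8_lh⟩
    | .hl => ⟨_, far8_hl⟩
    | .hh => ⟨_, far8_hh⟩

theorem checks9 : Checks data piece9 where
  top := ⟨_, top9⟩
  low := ⟨_, low9⟩
  high := ⟨_, high9⟩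
  below h := nomatch h
  vertex _ i := match i with
    | .ll => ⟨_, vertex9_ll⟩
    | .lh => ⟨_, vertex9_lh⟩
    | .hl => ⟨_, vertex9_hl⟩
    | .hh => ⟨_, vertex9_hh⟩
  near _ i := match i with
    | .ll => ⟨_, near9_ll⟩
    | .lh => ⟨_, near9_lh⟩
    | .hl => ⟨_, near9_hl⟩
    | .hh => ⟨_, near9_hh⟩
  far i := match i with
    | .ll => ⟨_, far9_ll⟩
    | .lh => ⟨_, far9_lh⟩
    | .hl => ⟨_, far9_hl⟩
    | .hh => ⟨_, far9_hh⟩

theorem checks10 : Checks data piece10 where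
  top := ⟨_, top10⟩
  low := ⟨_, low10⟩
  high := ⟨_, high10⟩
  below h := nomatch h
  vertex _ i := match i with
    | .ll => ⟨_, vertex10_ll⟩
    | .lh => ⟨_, vertex10_lh⟩
    | .hl => ⟨_, vertex10_hl⟩
    | .hh => ⟨_, vertex10_hh⟩
  near _ i := match i with
    | .ll => ⟨_, near10_ll⟩
    | .lh => ⟨_, near10_lh⟩
    | .hl => ⟨_, near10_hl⟩
    | .hh => ⟨_, near10_hh⟩
  far i := match i with
    | .ll => ⟨_, far10_ll⟩
    | .lh => ⟨_, far10_lh⟩
    | .hl => ⟨_, far10_hl⟩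
    | .hh => ⟨_, far10_hh⟩

theorem checks11 : Checks data piece11 where
  top := ⟨_, top11⟩
  low := ⟨_, low11⟩
  high := ⟨_, high11⟩
  vertex h := nomatch h
  near h := nomatch h
  far i := match i with
    | .ll => ⟨_, far11_ll⟩
    | .lh => ⟨_, far11_lh⟩
    | .hl => ⟨_, far11_hl⟩
    | .hh => ⟨_, far11_hh⟩
  below _ _ i := match i with
    | .ll => ⟨_, below11_ll⟩
    | .lh => ⟨_, below11_lh⟩
    | .hl => ⟨_, below11_hl⟩
    | .hh => ⟨_, below11_hh⟩

theorem checks12 : Checks data piece12 where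
  top := ⟨_, top12⟩
  low := ⟨_, low12⟩
  high := ⟨_, high12⟩
  vertex h := nomatch h
  near h := nomatch h
  far i := match i with
    | .ll => ⟨_, far12_ll⟩
    | .lh => ⟨_, far12_lh⟩
    | .hl => ⟨_, far12_hl⟩
    | .hh => ⟨_, far12_hh⟩
  below _ _ i := match i with
    | .ll => ⟨_, below12_ll⟩
    | .lh => ⟨_, below12_lh⟩
    | .hl => ⟨_, below12_hl⟩
    | .hh => ⟨_, below12_hh⟩

theorem checks13 : Checks data piece13 where
  top := ⟨_, top13⟩
  low := ⟨_, low13⟩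
  high := ⟨_, high13⟩
  vertex h := nomatch h
  near h := nomatch h
  far i := match i with
    | .ll => ⟨_, far13_ll⟩
    | .lh => ⟨_, far13_lh⟩
    | .hl => ⟨_, far13_hl⟩
    | .hh => ⟨_, far13_hh⟩
  below _ _ i := match i with
    | .ll => ⟨_, below13_ll⟩
    | .lh => ⟨_, below13_lh⟩
    | .hl => ⟨_, below13_hl⟩
    | .hh => ⟨_, below13_hh⟩

theorem checks14 : Checks data piece14 where
  top := ⟨_, top14⟩
  low := ⟨_, low14⟩
  high := ⟨_, high14⟩
  vertex h := nomatch h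
  near h := nomatch h
  far i := match i with
    | .ll => ⟨_, far14_ll⟩
    | .lh => ⟨_, far14_lh⟩
    | .hl => ⟨_, far14_hl⟩
    | .hh => ⟨_, far14_hh⟩
  below _ _ i := match i with
    | .ll => ⟨_, below14_ll⟩
    | .lh => ⟨_, below14_lh⟩
    | .hl => ⟨_, below14_hl⟩
    | .hh => ⟨_, below14_hh⟩

theorem checks15 : Checks data piece15 where
  top := ⟨_, top15⟩
  low := ⟨_, low15⟩
  high := ⟨_, high15⟩
  vertex h := nomatch h
  near h := nomatch h
  far i := match i with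
    | .ll => ⟨_, far15_ll⟩
    | .lh => ⟨_, far15_lh⟩
    | .hl => ⟨_, far15_hl⟩
    | .hh => ⟨_, far15_hh⟩
  below _ _ i := match i with
    | .ll => ⟨_, below15_ll⟩
    | .lh => ⟨_, below15_lh⟩
    | .hl => ⟨_, below15_hl⟩
    | .hh => ⟨_, below15_hh⟩

theorem checks16 : Checks data piece16 where
  top := ⟨_, top16⟩
  low := ⟨_, low16⟩
  high := ⟨_, high16⟩
  vertex h := nomatch h
  near h := nomatch h
  far i := match i with
    | .ll => ⟨_, far16_ll⟩
    | .lh => ⟨_, far16_lh⟩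
    | .hl => ⟨_, far16_hl⟩
    | .hh => ⟨_, far16_hh⟩
  below _ _ i := match i with
    | .ll => ⟨_, below16_ll⟩
    | .lh => ⟨_, below16_lh⟩
    | .hl => ⟨_, below16_hl⟩
    | .hh => ⟨_, below16_hh⟩

theorem checks17 : Checks data piece17 where
  top := ⟨_, top17⟩
  low := ⟨_, low17⟩
  high := ⟨_, high17⟩
  vertex h := nomatch h
  near h := nomatch h
  far i := match i with
    | .ll => ⟨_, far17_ll⟩
    | .lh => ⟨_, far17_lh⟩
    | .hl => ⟨_, far17_hl⟩
    | .hh => ⟨_, far17_hh⟩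
  below _ _ i := match i with
    | .ll => ⟨_, below17_ll⟩
    | .lh => ⟨_, below17_lh⟩
    | .hl => ⟨_, below17_hl⟩
    | .hh => ⟨_, below17_hh⟩

theorem checks18 : Checks data piece18 where
  top := ⟨_, top18⟩
  low := ⟨_, low18⟩
  high := ⟨_, high18⟩
  vertex h := nomatch h
  near h := nomatch h
  far i := match i with
    | .ll => ⟨_, far18_ll⟩
    | .lh => ⟨_, far18_lh⟩
    | .hl => ⟨_, far18_hl⟩
    | .hh => ⟨_, far18_hh⟩
  below _ _ i := match i with
    | .ll => ⟨_, below18_ll⟩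
    | .lh => ⟨_, below18_lh⟩
    | .hl => ⟨_, below18_hl⟩
    | .hh => ⟨_, below18_hh⟩

theorem checks19 : Checks data piece19 where
  top := ⟨_, top19⟩
  low := ⟨_, low19⟩
  high := ⟨_, high19⟩
  vertex h := nomatch h
  near h := nomatch h
  far i := match i with
    | .ll => ⟨_, far19_ll⟩
    | .lh => ⟨_, far19_lh⟩
    | .hl => ⟨_, far19_hl⟩
    | .hh => ⟨_, far19_hh⟩
  below _ _ i := match i with
    | .ll => ⟨_, below19_ll⟩
    | .lh => ⟨_, below19_lh⟩
    | .hl => ⟨_, below19_hl⟩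
    | .hh => ⟨_, below19_hh⟩

theorem checks20 : Checks data piece20 where
  top := ⟨_, top20⟩
  low := ⟨_, low20⟩
  high := ⟨_, high20⟩
  vertex h := nomatch h
  near h := nomatch h
  far i := match i with
    | .ll => ⟨_, far20_ll⟩
    | .lh => ⟨_, far20_lh⟩
    | .hl => ⟨_, far20_hl⟩
    | .hh => ⟨_, far20_hh⟩
  below _ _ i := match i with
    | .ll => ⟨_, below20_ll⟩
    | .lh => ⟨_, below20_lh⟩
    | .hl => ⟨_, below20_hl⟩
    | .hh => ⟨_, below20_hh⟩

theorem checks21 : Checks data piece21 where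
  top := ⟨_, top21⟩
  low := ⟨_, low21⟩
  high := ⟨_, high21⟩
  vertex h := nomatch h
  near h := nomatch h
  far i := match i with
    | .ll => ⟨_, far21_ll⟩
    | .lh => ⟨_, far21_lh⟩
    | .hl => ⟨_, far21_hl⟩
    | .hh => ⟨_, far21_hh⟩
  below _ _ i := match i with
    | .ll => ⟨_, below21_ll⟩
    | .lh => ⟨_, below21_lh⟩
    | .hl => ⟨_, below21_hl⟩
    | .hh => ⟨_, below21_hh⟩

theorem checks22 : Checks data piece22 where
  top := ⟨_, top22⟩
  low := ⟨_, low22⟩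
  high := ⟨_, high22⟩
  vertex h := nomatch h
  near h := nomatch h
  far i := match i with
    | .ll => ⟨_, far22_ll⟩
    | .lh => ⟨_, far22_lh⟩
    | .hl => ⟨_, far22_hl⟩
    | .hh => ⟨_, far22_hh⟩
  below _ _ i := match i with
    | .ll => ⟨_, below22_ll⟩
    | .lh => ⟨_, below22_lh⟩
    | .hl => ⟨_, below22_hl⟩
    | .hh => ⟨_, below22_hh⟩

theorem checks23 : Checks data piece23 where
  top := ⟨_, top23⟩
  low := ⟨_, low23⟩
  high := ⟨_, high23⟩
  vertex h := nomatch h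
  near h := nomatch h
  far i := match i with
    | .ll => ⟨_, far23_ll⟩
    | .lh => ⟨_, far23_lh⟩
    | .hl => ⟨_, far23_hl⟩
    | .hh => ⟨_, far23_hh⟩
  below _ _ i := match i with
    | .ll => ⟨_, below23_ll⟩
    | .lh => ⟨_, below23_lh⟩
    | .hl => ⟨_, below23_hl⟩
    | .hh => ⟨_, below23_hh⟩

theorem checks24 : Checks data piece24 where
  top := ⟨_, top24⟩
  low := ⟨_, low24⟩
  high := ⟨_, high24⟩
  vertex h := nomatch h
  near h := nomatch h
  far i := match i with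
    | .ll => ⟨_, far24_ll⟩
    | .lh => ⟨_, far24_lh⟩
    | .hl => ⟨_, far24_hl⟩
    | .hh => ⟨_, far24_hh⟩
  below _ _ i := match i with
    | .ll => ⟨_, below24_ll⟩
    | .lh => ⟨_, below24_lh⟩
    | .hl => ⟨_, below24_hl⟩
    | .hh => ⟨_, below24_hh⟩

theorem checks25 : Checks data piece25 where
  top := ⟨_, top25⟩
  low := ⟨_, low25⟩
  high := ⟨_, high25⟩
  vertex h := nomatch h
  near h := nomatch h
  far i := match i with
    | .ll => ⟨_, far25_ll⟩
    | .lh => ⟨_, far25_lh⟩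
    | .hl => ⟨_, far25_hl⟩
    | .hh => ⟨_, far25_hh⟩
  below _ _ i := match i with
    | .ll => ⟨_, below25_ll⟩
    | .lh => ⟨_, below25_lh⟩
    | .hl => ⟨_, below25_hl⟩
    | .hh => ⟨_, below25_hh⟩

theorem checks26 : Checks data piece26 where
  top := ⟨_, top26⟩
  low := ⟨_, low26⟩
  high := ⟨_, high26⟩
  vertex h := nomatch h
  near h := nomatch h
  far i := match i with
    | .ll => ⟨_, far26_ll⟩
    | .lh => ⟨_, far26_lh⟩
    | .hl => ⟨_, far26_hl⟩
    | .hh => ⟨_, far26_hh⟩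
  below _ _ i := match i with
    | .ll => ⟨_, below26_ll⟩
    | .lh => ⟨_, below26_lh⟩
    | .hl => ⟨_, below26_hl⟩
    | .hh => ⟨_, below26_hh⟩

theorem checks27 : Checks data piece27 where
  top := ⟨_, top27⟩
  low := ⟨_, low27⟩
  high := ⟨_, high27⟩
  vertex h := nomatch h
  near h := nomatch h
  far i := match i with
    | .ll => ⟨_, far27_ll⟩
    | .lh => ⟨_, far27_lh⟩
    | .hl => ⟨_, far27_hl⟩
    | .hh => ⟨_, far27_hh⟩
  below _ _ i := match i with
    | .ll => ⟨_, below27_ll⟩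
    | .lh => ⟨_, below27_lh⟩
    | .hl => ⟨_, below27_hl⟩
    | .hh => ⟨_, below27_hh⟩

theorem checks28 : Checks data piece28 where
  top := ⟨_, top28⟩
  low := ⟨_, low28⟩
  high := ⟨_, high28⟩
  vertex h := nomatch h
  near h := nomatch h
  far i := match i with
    | .ll => ⟨_, far28_ll⟩
    | .lh => ⟨_, far28_lh⟩
    | .hl => ⟨_, far28_hl⟩
    | .hh => ⟨_, far28_hh⟩
  below _ _ i := match i with
    | .ll => ⟨_, below28_ll⟩
    | .lh => ⟨_, below28_lh⟩
    | .hl => ⟨_, below28_hl⟩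
    | .hh => ⟨_, below28_hh⟩

theorem checks29 : Checks data piece29 where
  top := ⟨_, top29⟩
  low := ⟨_, low29⟩
  high := ⟨_, high29⟩
  vertex h := nomatch h
  near h := nomatch h
  far i := match i with
    | .ll => ⟨_, far29_ll⟩
    | .lh => ⟨_, far29_lh⟩
    | .hl => ⟨_, far29_hl⟩
    | .hh => ⟨_, far29_hh⟩
  below _ _ i := match i with
    | .ll => ⟨_, below29_ll⟩
    | .lh => ⟨_, below29_lh⟩
    | .hl => ⟨_, below29_hl⟩
    | .hh => ⟨_, below29_hh⟩

theorem checks30 : Checks data piece30 where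
  top := ⟨_, top30⟩
  low := ⟨_, low30⟩
  high := ⟨_, high30⟩
  vertex h := nomatch h
  near h := nomatch h
  far i := match i with
    | .ll => ⟨_, far30_ll⟩
    | .lh => ⟨_, far30_lh⟩
    | .hl => ⟨_, far30_hl⟩
    | .hh => ⟨_, far30_hh⟩
  below _ _ i := match i with
    | .ll => ⟨_, below30_ll⟩
    | .lh => ⟨_, below30_lh⟩
    | .hl => ⟨_, below30_hl⟩
    | .hh => ⟨_, below30_hh⟩

theorem checks31 : Checks data piece31 where
  top := ⟨_, top31⟩
  low := ⟨_, low31⟩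
  high := ⟨_, high31⟩
  vertex h := nomatch h
  near h := nomatch h
  far i := match i with
    | .ll => ⟨_, far31_ll⟩
    | .lh => ⟨_, far31_lh⟩
    | .hl => ⟨_, far31_hl⟩
    | .hh => ⟨_, far31_hh⟩
  below _ _ i := match i with
    | .ll => ⟨_, below31_ll⟩
    | .lh => ⟨_, below31_lh⟩
    | .hl => ⟨_, below31_hl⟩
    | .hh => ⟨_, below31_hh⟩

theorem checks32 : Checks data piece32 where
  top := ⟨_, top32⟩
  low := ⟨_, low32⟩
  high := ⟨_, high32⟩
  vertex h := nomatch h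
  near h := nomatch h
  far i := match i with
    | .ll => ⟨_, far32_ll⟩
    | .lh => ⟨_, far32_lh⟩
    | .hl => ⟨_, far32_hl⟩
    | .hh => ⟨_, far32_hh⟩
  below _ _ i := match i with
    | .ll => ⟨_, below32_ll⟩
    | .lh => ⟨_, below32_lh⟩
    | .hl => ⟨_, below32_hl⟩
    | .hh => ⟨_, below32_hh⟩

end Vale.Agent.P237.Petty.Cor.Mid32.Cell5
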